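import Mathlib

namespace Vale.Agent.P305

/-- Machine state: registers, arrays of words, and the number of random bits drawn so far. -/
structure State where
  reg : ℕ → ℕ
  arr : ℕ → ℕ → ℕ
  coins : ℕ

/-- Word expressions: constants, registers, array reads, arithmetic and comparison. -/
inductive Expr where
  | lit (c : ℕ)
  | reg (r : ℕ)
  | load (a : ℕ) (i : Expr)
  | add (x y : Expr)
  | sub (x y : Expr)
  | mul (x y : Expr)
  | div (x y : Expr)
  | mod (x y : Expr)
  | lt (x y : Expr)

/-- Value of an expression (truncated subtraction, integer division, comparison is 0 or 1). -/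
def Expr.val (σ : State) : Expr → ℕ
  | .lit c => c
  | .reg r => σ.reg r
  | .load a i => σ.arr a (i.val σ)
  | .add x y => x.val σ + y.val σ
  | .sub x y => x.val σ - y.val σ
  | .mul x y => x.val σ * y.val σ
  | .div x y => x.val σ / y.val σ
  | .mod x y => x.val σ % y.val σ
  | .lt x y => if x.val σ < y.val σ then 1 else 0

/-- Every intermediate value (addresses included) is a word, that is, less than `B`. -/
def Expr.Fits (B : ℕ) (σ : State) : Expr → Prop
  | .lit c => c < B
  | .reg r => σ.reg r < B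
  | .load a i => i.Fits B σ ∧ σ.arr a (i.val σ) < B
  | .add x y => x.Fits B σ ∧ y.Fits B σ ∧ x.val σ + y.val σ < B
  | .sub x y => x.Fits B σ ∧ y.Fits B σ
  | .mul x y => x.Fits B σ ∧ y.Fits B σ ∧ x.val σ * y.val σ < B
  | .div x y => x.Fits B σ ∧ y.Fits B σ
  | .mod x y => x.Fits B σ ∧ y.Fits B σ
  | .lt x y => x.Fits B σ ∧ y.Fits B σ

/-- Programs: register write, array write, fair random bit, sequence, branch, while loop. -/
inductive Prog where
  | set (r : ℕ) (e : Expr)
  | store (a : ℕ) (i e : Expr)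
  | coin (r : ℕ)
  | seq (p q : Prog)
  | ite (e : Expr) (p q : Prog)
  | loop (e : Expr) (p : Prog)

/-- `Exec B ρ p σ σ' t`: with words below `B` and random bits `ρ 0, ρ 1, …`, program `p` started
in `σ` halts in `σ'` after `t` steps, without overflow. Each write, random bit and test costs 1. -/
inductive Exec (B : ℕ) (ρ : ℕ → Bool) : Prog → State → State → ℕ → Prop where
  | set {r e σ} : e.Fits B σ →
      Exec B ρ (.set r e) σ { σ with reg := Function.update σ.reg r (e.val σ) } 1
  | store {a i e σ} : i.Fits B σ → e.Fits B σ →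
      Exec B ρ (.store a i e) σ
        { σ with arr := Function.update σ.arr a (Function.update (σ.arr a) (i.val σ) (e.val σ)) } 1
  | coin {r σ} :
      Exec B ρ (.coin r) σ
        { σ with reg := Function.update σ.reg r (if ρ σ.coins then 1 else 0),
                 coins := σ.coins + 1 } 1
  | seq {p q σ σ₁ σ₂ s t} : Exec B ρ p σ σ₁ s → Exec B ρ q σ₁ σ₂ t →
      Exec B ρ (.seq p q) σ σ₂ (s + t)
  | iteT {e p q σ σ₁ t} : e.Fits B σ → e.val σ ≠ 0 → Exec B ρ p σ σ₁ t →
      Exec B ρ (.ite e p q) σ σ₁ (t + 1)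
  | iteF {e p q σ σ₁ t} : e.Fits B σ → e.val σ = 0 → Exec B ρ q σ σ₁ t →
      Exec B ρ (.ite e p q) σ σ₁ (t + 1)
  | loopF {e p σ} : e.Fits B σ → e.val σ = 0 → Exec B ρ (.loop e p) σ σ 1
  | loopT {e p σ σ₁ σ₂ s t} : e.Fits B σ → e.val σ ≠ 0 → Exec B ρ p σ σ₁ s →
      Exec B ρ (.loop e p) σ₁ σ₂ t → Exec B ρ (.loop e p) σ σ₂ (s + t + 1)

/-- `adj v` lists the neighbours of `v` in `G`, each once, in any order. -/
def IsAdjList {n : ℕ} (G : SimpleGraph (Fin n)) (adj : Fin n → List (Fin n)) : Prop :=
  ∀ v, (adj v).Nodup ∧ ∀ w, w ∈ adj v ↔ G.Adj v w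

/-- Input state: `n` in register 0, the degrees in array 0, the concatenated adjacency lists in
array 1, zero everywhere else. -/
def input {n : ℕ} (adj : Fin n → List (Fin n)) : State where
  reg := fun r => if r = 0 then n else 0
  arr := fun a i =>
    if a = 0 then (List.ofFn fun v => (adj v).length).getD i 0
    else if a = 1 then ((List.ofFn adj).flatten.map Fin.val).getD i 0
    else 0
  coins := 0

/-- A finite string of random bits, read as a tape. -/
def tape {L : ℕ} (ρ : Fin L → Bool) : ℕ → Bool := fun i => if h : i < L then ρ ⟨i, h⟩ else false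

/-- Array 2 describes a maximum matching `M` of `G`: cell `u` holds `v + 1` iff `uv ∈ M`. -/
def OutputsMax {n : ℕ} (G : SimpleGraph (Fin n)) (σ : State) : Prop :=
  ∃ M : G.Subgraph, M.IsMatching ∧
    (∀ M' : G.Subgraph, M'.IsMatching → M'.edgeSet.ncard ≤ M.edgeSet.ncard) ∧
    ∀ u v : Fin n, M.Adj u v ↔ σ.arr 2 u = v + 1

end Vale.Agent.P305
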